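import Vale.Agent.P057SG.Plan
import Vale.Agent.P057GH.Pt
import Vale.Agent.P057NA.Mix

/-!
The frequencies without correlation are dropped.
-/

set_option linter.all false

open Matrix Finset Real
open Vale.Agent.P267.H775 Vale.Agent.P057G Vale.Agent.P057PC Vale.Agent.P057TP Vale.Agent.P057SG
open Vale.Agent.P057T1 (ind ind_pos ind_nonneg ind_le abs_ind ind_mono)
open Vale.Agent.P057DP (Sel thK ht drop_pt tl_le exists_sels cb thK_top)
open Vale.Agent.P057GH (pr_congr pd_Gam F_le_ms F_nonneg tri_up card_cells)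

namespace Vale.Agent.P057DR

noncomputable section

theorem summ_mul {A : Type*} {u g : A → ℝ} {K : ℝ} (hu : Summable u) (u0 : ∀ a, 0 ≤ u a)
    (hg : ∀ a, |g a| ≤ K) : Summable fun a => u a * g a :=
  .of_norm_bounded (hu.mul_right K) fun a => by
    rw [Real.norm_eq_abs, abs_mul, abs_of_nonneg (u0 a)]
    exact mul_le_mul_of_nonneg_left (hg a) (u0 a)

theorem abs_tsum_le {A : Type*} {u g : A → ℝ} {K : ℝ} (hu : Summable u) (u0 : ∀ a, 0 ≤ u a)
    (hg : ∀ a, |g a| ≤ K) : |∑' a, u a * g a| ≤ K * ∑' a, u a := by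
  rw [mul_comm, ← tsum_mul_right, ← Real.norm_eq_abs]
  refine tsum_of_norm_bounded (hu.mul_right K).hasSum fun a => ?_
  rw [Real.norm_eq_abs, abs_mul, abs_of_nonneg (u0 a)]
  exact mul_le_mul_of_nonneg_left (hg a) (u0 a)

/-- the pigeonhole principle for iterated sums -/
theorem pig2 {A B Λ : Type*} {u : A → ℝ} {v : A → B → ℝ} {K c : ℝ} (hu : Summable u)
    (u0 : ∀ a, 0 ≤ u a) (hv : ∀ a, Summable (v a)) (v0 : ∀ a b, 0 ≤ v a b)
    (hK : ∀ a, ∑' b, v a b ≤ K) (F : Finset Λ) {Ω : A → B → Prop} {Q : Λ → A → B → Prop}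
    (h : ∀ a b, Ω a b → ∃ l ∈ F, Q l a b) (c0 : 0 < c)
    (hc : c ≤ ∑' a, u a * ∑' b, v a b * ind (Ω a b)) :
    ∃ l ∈ F, c ≤ F.card * ∑' a, u a * ∑' b, v a b * ind (Ω a b ∧ Q l a b) := by
  have s1 : ∀ a (p : B → Prop), Summable fun b => v a b * ind (p b) := fun a p =>
    summ_mul (hv a) (v0 a) fun _ => abs_ind _
  have s2 : ∀ p : A → B → Prop, Summable fun a => u a * ∑' b, v a b * ind (p a b) := fun p =>
    summ_mul hu u0 fun a => (abs_tsum_le (hv a) (v0 a) fun _ => abs_ind _).trans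
      ((one_mul _).trans_le (hK a))
  have k : c ≤ ∑ l ∈ F, ∑' a, u a * ∑' b, v a b * ind (Ω a b ∧ Q l a b) := by
    rw [← Summable.tsum_finsetSum fun l _ => s2 _]
    refine hc.trans (Summable.tsum_le_tsum (fun a => ?_) (s2 _) (summable_sum fun l _ => s2 _))
    rw [← mul_sum, ← Summable.tsum_finsetSum fun l _ => s1 a _]
    refine mul_le_mul_of_nonneg_left (Summable.tsum_le_tsum (fun b => ?_) (s1 a _)
      (summable_sum fun l _ => s1 a _)) (u0 a)
    rw [← mul_sum]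
    refine mul_le_mul_of_nonneg_left ?_ (v0 a b)
    by_cases e : Ω a b
    · obtain ⟨l, hl, q⟩ := h a b e
      exact (ind_mono fun _ => And.intro e q).trans
        (single_le_sum (f := fun l => ind (Ω a b ∧ Q l a b)) (fun _ _ => ind_nonneg _) hl)
    · rw [P057T1.ind_neg e]
      exact sum_nonneg fun _ _ => ind_nonneg _
  obtain ⟨l, hl, m⟩ := exists_max_image F (fun l => ∑' a, u a * ∑' b, v a b *
    ind (Ω a b ∧ Q l a b)) (nonempty_of_sum_ne_zero (c0.trans_le k).ne')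
  exact ⟨l, hl, k.trans ((sum_le_card_nsmul _ _ _ m).trans_eq (nsmul_eq_mul _ _))⟩

section gen

variable {T : Tow} {C U : Type} {cl : U → C} {m s : ℕ} {N : ℝ}

theorem toR_gl3 (w : PW T cl m → ℤ) (x : LS T cl m → ℤ) (y : NP T cl m → ℤ) :
    toR (gl3 w x y) = gl3 (toR w) (toR x) (toR y) := funext fun l => by
  simp only [toR_apply, gl3]
  split_ifs <;> rfl

theorem gl3_congr {R : Type} {w w' : PW T cl m → R} {x x' : LS T cl m → R} {y y' : NP T cl m → R}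
    {l : Lb T cl Unit m} (h1 : ∀ h, w ⟨l, h⟩ = w' ⟨l, h⟩) (h2 : ∀ h, x ⟨l, h⟩ = x' ⟨l, h⟩)
    (h3 : ∀ h, y ⟨l, h⟩ = y' ⟨l, h⟩) : gl3 w x y l = gl3 w' x' y' l := by
  unfold gl3
  split_ifs
  exacts [h1 _, h2 _, h3 _]

variable [Fintype U] [DecidableEq U] {Z : Sys T U Unit} (hT : T.Ok s N) (hZ : Z.Ok)
include hT hZ

theorem tri_P : Tri (fun l : PW T cl m => T.lv l.1.cd) fun w l => Z.pr cl m (gl3 (toR w) 0 0) l :=
  fun _ _ _ k => pr_congr hT hZ fun l _ _ h => gl3_congr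
    (fun e => congrArg Int.cast (k ⟨l, e⟩ h)) (fun _ => rfl) fun _ => rfl

theorem tri_L (w : PW T cl m → ℤ) :
    Tri (fun l : LS T cl m => T.lv l.1.cd) fun z => cL Z w (toR z) :=
  fun _ _ _ k => pr_congr hT hZ fun l _ _ h => gl3_congr
    (fun _ => rfl) (fun e => congrArg Int.cast (k ⟨l, e⟩ h)) fun _ => rfl

theorem tri_T (w : PW T cl m → ℤ) :
    Tri (fun l : LS T cl m => T.lv l.1.cd) fun z => cL Z w (toR z) - cL Z w 0 :=
  fun l z z' k => congrArg (· - cL Z w 0 l) (tri_L hT hZ w l z z' k)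

theorem tri_N (w : PW T cl m → ℤ) (x : LS T cl m → ℤ) :
    Tri (fun l : NP T cl m => T.lv l.1.cd) fun y l => Z.pr cl m (toR (gl3 w x y)) l :=
  fun _ _ _ k => pr_congr hT hZ fun l _ _ h => congrArg Int.cast
    (gl3_congr (fun _ => rfl) (fun _ => rfl) fun e => k ⟨l, e⟩ h)

theorem summ_P : Summable (wP Z : (PW T cl m → ℤ) → ℝ) :=
  summable_ng (tri_P hT hZ) (posDef_bk (pd_Gam hT.pd cl Unit m) _)

theorem summ_L (w : PW T cl m → ℤ) : Summable (wL Z w) :=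
  summable_ng (tri_L hT hZ w) (posDef_bk (pd_Gam hT.pd cl Unit m) _)

theorem bdd_L : ∃ K, ∀ w : PW T cl m → ℤ, ∑' z, wL Z w z ≤ K :=
  (ms_bdd (posDef_bk (pd_Gam hT.pd cl Unit m) Li)).imp fun _ h w => h _ _ (tri_L hT hZ w)

theorem summ_T {γ : ℝ} (hγ : 0 < γ) (w : PW T cl m → ℤ) : Summable (wT Z γ w) :=
  summable_ng (tri_T hT hZ w) ((posDef_bk (pd_Gam hT.pd cl Unit m) _).smul hγ)

theorem summ_N (w : PW T cl m → ℤ) (x : LS T cl m → ℤ) : Summable (wN Z w x) :=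
  summable_ng (tri_N hT hZ w x) (posDef_bk (pd_Gam hT.pd cl Unit m) _)

theorem bdd_N : ∃ K, ∀ (w : PW T cl m → ℤ) x, ch Z (fun _ => 1) w x ≤ K :=
  (ms_bdd (posDef_bk (pd_Gam hT.pd cl Unit m) No)).imp fun _ h w x => by
    simp only [ch, mul_one]
    exact h _ _ (tri_N hT hZ w x)

variable {F F' : (Lb T cl Unit m → ℤ) → ℝ} {K K' γ : ℝ}

theorem abs_ch (hF : ∀ z, |F z| ≤ K) (w : PW T cl m → ℤ) (x : LS T cl m → ℤ) :
    |ch Z F w x| ≤ K * ch Z (fun _ => 1) w x := by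
  simpa [ch] using abs_tsum_le (summ_N hT hZ w x) (fun _ => ng_nonneg _ _) fun y => hF (gl3 w x y)

theorem ch_sub (hF : ∀ z, |F z| ≤ K) (a : ℝ) (w : PW T cl m → ℤ) (x : LS T cl m → ℤ) :
    ch Z (fun z => F z - a) w x = ch Z F w x - a * ch Z (fun _ => 1) w x := by
  unfold ch
  rw [← tsum_mul_left, ← Summable.tsum_sub (summ_mul (summ_N hT hZ w x) (fun _ => ng_nonneg _ _)
    fun y => hF (gl3 w x y)) (((summ_N hT hZ w x).mul_right _).mul_left _)]
  exact tsum_congr fun _ => by ring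

theorem summ_ch (hγ : 0 < γ) (hF : ∀ z, |F z| ≤ K) (w : PW T cl m → ℤ) (z : LS T cl m → ℤ) :
    Summable fun t => wT Z γ w t * ch Z F w (z + t) := by
  obtain ⟨B, hB⟩ := bdd_N (cl := cl) (m := m) hT hZ
  exact summ_mul (summ_T hT hZ hγ w) (fun _ => ng_nonneg _ _) fun t => (abs_ch hT hZ hF w _).trans
    (mul_le_mul_of_nonneg_left (hB _ _) ((abs_nonneg _).trans (hF 0)))

theorem l1_ch (hγ : 0 < γ) (hF : ∀ z, |F z| ≤ K) (w : PW T cl m → ℤ) (z : LS T cl m → ℤ) :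
    ∑' t, |wT Z γ w t * ch Z F w (z + t)| ≤ K * ∑' t, wT Z γ w t * ch Z (fun _ => 1) w (z + t) := by
  rw [← tsum_mul_left]
  refine Summable.tsum_le_tsum (fun t => ?_) (summ_ch hT hZ hγ hF w z).abs
    ((summ_ch hT hZ hγ (K := 1) (fun _ => by simp) w z).mul_left _)
  rw [abs_mul, abs_of_nonneg (show 0 ≤ wT Z γ w t from ng_nonneg _ _), mul_left_comm]
  exact mul_le_mul_of_nonneg_left (abs_ch hT hZ hF w _) (ng_nonneg _ _)

theorem cor_sub (hγ : 0 < γ) (hF : ∀ z, |F z| ≤ K) (a : ℝ) (w : PW T cl m → ℤ)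
    (z : LS T cl m → ℤ) (ψ : LS T cl m → ℝ) : cor Z (fun z => F z - a) γ w z ψ =
      cor Z F γ w z ψ - a * cor Z (fun _ => 1) γ w z ψ := by
  have s : ∀ {h : (LS T cl m → ℤ) → ℝ}, Summable h →
      Summable fun t => (h t : ℂ) * ee (ψ ⬝ᵥ toR t) := fun hh =>
    .of_norm_bounded hh.abs fun t => by rw [norm_mul, norm_ee, mul_one, Complex.norm_real]; rfl
  unfold cor
  rw [← tsum_mul_left, ← Summable.tsum_sub (s (summ_ch hT hZ hγ hF w z))
    ((s (summ_ch hT hZ hγ (K := 1) (fun _ => by simp) w z)).mul_left _)]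
  refine tsum_congr fun t => ?_
  rw [ch_sub hT hZ hF]
  push_cast
  ring

/-- the functions on the cells are bounded in terms of the upper levels -/
theorem F_le (hN : 1 ≤ N) {f : ℤ → ℝ} (hf : Unit01 f) {Y : ℝ} (Y0 : 0 ≤ Y)
    (hY : ∀ e, m ≤ e → T.yy N e + 4 * (T.dm e + 1) ^ 2 ≤ Y) (z : Lb T cl Unit m → ℤ)
    (c : Finset U) : Z.F cl m f z c () ≤ exp Y ^ (s + 1) := by
  have b : ∀ l l' : {a // m ≤ T.lv a}, T.lv l.1 ≠ T.lv l'.1 → bk T.G _ l l' = 0 := fun l l' =>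
    hT.blk _ _
  refine (F_le_ms hT hZ hf z c ()).trans ((P057NA.ms_tri_le (s + 1) _ _ _ _ (tri_up hT hZ z c ())
    (posDef_bk hT.pd _) b fun l => Nat.lt_succ_of_le (hT.le _)).trans ?_)
  refine (ms_zero_le (Icc m s) _ (fun l => T.lv l.1) _ (posDef_bk hT.pd _) b
    (fun l => mem_Icc.2 ⟨l.2, hT.le _⟩) fun e he => ?_).trans
    (pow_le_pow_right₀ (one_le_exp Y0) (by simp))
  have h1 := (mem_Icc.1 he).1
  refine le_trans (le_of_eq ?_) ((P057TE.ms_blk hT hN e).trans (exp_le_exp.2 (hY e h1)))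
  let g : {i : {a // m ≤ T.lv a} // T.lv i.1 = e} ≃ {a // T.lv a = e} :=
    ⟨fun i => ⟨i.1.1, i.2⟩, fun a => ⟨⟨a.1, h1.trans_eq a.2.symm⟩, a.2⟩, fun _ => rfl, fun _ => rfl⟩
  exact ms_equiv g (fun _ _ => rfl) fun _ _ => rfl

end gen

theorem mul_exp {x y a b : ℝ} (hy : 0 ≤ y) (h : x ≤ exp a) (h' : y ≤ exp b) :
    x * y ≤ exp (a + b) := by
  rw [exp_add]
  exact mul_le_mul h h' hy (exp_pos _).le

theorem pow_exp {x a b : ℝ} {n : ℕ} (h0 : 0 ≤ x) (h : x ≤ exp a) (ha : 0 ≤ a) (hn : (n : ℝ) ≤ b) :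
    x ^ n ≤ exp (b * a) := by
  refine (pow_le_pow_left₀ h0 h n).trans ?_
  rw [← exp_nat_mul, exp_le_exp]
  exact mul_le_mul_of_nonneg_right hn ha

theorem le_exp {a : ℝ} (b : ℝ) (h : a ≤ b + 1) : a ≤ exp b := h.trans (add_one_le_exp b)

variable {s n p c : ℕ} {N θ A X : ℝ} {P : ℕ → ℝ} {T : Tow} {R : Type} [Fintype R] [DecidableEq R]
  {Z : Sys T (Uv n p R) Unit} {f : ℤ → ℝ}

/-- crude bounds for the product over the cells and for the reference value -/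
theorem pg_le (h : Ctx s N c P T n p R Z f θ A) (hX : P (n + 2) ≤ X) (hs : (s : ℝ) + 10 ≤ X) :
    (∀ z, 0 ≤ PG Z f z ∧ PG Z f z ≤ exp (X ^ (s + 4))) ∧
      θ ^ (cells (Prod.fst : Wv n p → Fin n)).card ≤ exp (X ^ (s + 4)) := by
  have s0 : (0 : ℝ) ≤ s := Nat.cast_nonneg s
  have k1 : ((cells (Prod.fst : Wv n p → Fin n)).card : ℝ) ≤ X ^ s := by
    rw [card_cells, Fintype.card_fin, Fintype.card_fin, Nat.cast_pow]
    exact (pow_le_pow_left₀ (Nat.cast_nonneg _) (h.pP.trans hX) n).trans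
      (pow_le_pow_right₀ (by linarith) (by linarith [h.ns]))
  have x3 : 10 * X ^ 2 ≤ X ^ 3 := by nlinarith [sq_nonneg X]
  have an : ∀ e, n + 2 ≤ e → P e ≤ X := fun e he =>
    (antitone_nat_of_succ_le h.lad.anti he).trans hX
  have k2 : ∀ z c, Z.F cU (n + 2) f z c () ≤ exp (X ^ 4) := fun z c =>
    (F_le h.ok h.zok h.lad.one h.u01 (Y := X ^ 3) (by nlinarith) (fun e he => by
      have a1 := (h.cx e).1.trans (an e he)
      have a2 := (h.cx e).2.trans (an e he)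
      have a3 : 0 ≤ T.dm e := Nat.cast_nonneg _
      nlinarith) z c).trans ((pow_exp (exp_pos _).le le_rfl (b := X) (by nlinarith)
        (by push_cast; linarith)).trans_eq (by ring_nf))
  have x4 : 0 ≤ X ^ 4 := by positivity
  refine ⟨fun z => ⟨prod_nonneg fun _ _ => F_nonneg Z h.u01 _ _ _, ?_⟩, ?_⟩
  · refine (prod_le_prod (fun _ _ => F_nonneg Z h.u01 _ _ _) fun _ _ => k2 z _).trans ?_
    rw [prod_const]
    exact (pow_exp (exp_pos _).le le_rfl x4 k1).trans_eq (by ring_nf)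
  · exact (pow_exp h.t0 (a := X ^ 4) (le_exp _ (by nlinarith [h.t4])) x4 k1).trans_eq (by ring_nf)

theorem card_sels {r H : ℕ} {Y : ℝ} (hr : (r : ℝ) ≤ X) (hH : (H : ℝ) ≤ exp (3 * Y)) (hX : 10 ≤ X)
    (hY : X ≤ Y) : (((r + 1) * (2 * cb (Fin r) H + 1) ^ (2 * r ^ 2 + 1) : ℕ) : ℝ) ≤
      exp (16 * X ^ 3 * Y) := by
  have r0 : (0 : ℝ) ≤ r := Nat.cast_nonneg r
  have a1 : (cb (Fin r) H : ℝ) ≤ exp (X * (Y + 3 * Y)) := by
    refine le_trans ?_ (pow_exp (by positivity) (mul_exp (Nat.cast_nonneg H)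
      (le_exp (a := r) Y (by linarith)) hH) (by linarith) hr)
    rw [cb, Fintype.card_fin, mul_pow]
    exact_mod_cast Nat.mul_le_mul_right _ (Nat.factorial_le_pow r)
  have xy : 100 ≤ X * Y := by nlinarith
  have a2 : 2 * (cb (Fin r) H : ℝ) + 1 ≤ exp (5 * X * Y) := by
    refine le_trans ?_ ((mul_exp (exp_pos _).le (le_exp (a := 3) (X * Y) (by linarith))
      (le_refl (exp (X * (Y + 3 * Y))))).trans_eq (by ring_nf))
    linarith [one_le_exp (x := X * (Y + 3 * Y)) (by linarith)]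
  push_cast
  refine (mul_exp (by positivity) (le_exp X (by linarith)) (pow_exp (b := 3 * X ^ 2)
    (by positivity) a2 (by linarith) (by push_cast; nlinarith))).trans (exp_le_exp.2 ?_)
  nlinarith [mul_le_mul_of_nonneg_left xy (sq_nonneg X)]

theorem le_of_card {a b x y : ℝ} (hy : 0 ≤ y) (h : exp (-a) ≤ x * y) (hx : x ≤ exp b) :
    exp (-(a + b)) ≤ y := by
  refine le_of_mul_le_mul_left ?_ (exp_pos b)
  rw [← exp_add]
  exact ((le_of_eq (by ring_nf)).trans h).trans (mul_le_mul_of_nonneg_right hx hy)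

/-- **dropping** -/
theorem drop (s : ℕ) : DROP s := by
  classical
  refine ⟨s + 10, by omega, fun N P T n p R _ _ Z f θ A γ sig X r ξ Ω h hX hγ _
    ⟨k1, k2, k3, ⟨k4, k5⟩, k6⟩ => ?_⟩
  have hs : (s : ℝ) + 10 ≤ X := le_trans (by exact_mod_cast h.lad.big (n + 2)) hX
  have s0 : (0 : ℝ) ≤ s := Nat.cast_nonneg s
  obtain ⟨b1, b2⟩ := pg_le h hX hs
  have y1 : X ≤ X ^ (s + 4) := le_self_pow₀ (by linarith) (by omega)
  have y2 : X ^ (s + 10) = X ^ 3 * X ^ 3 * X ^ (s + 4) := by ring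
  generalize X ^ (s + 4) = Y at b1 b2 y1 y2
  have x3 : 1000 ≤ X ^ 3 := le_trans (by norm_num) (pow_le_pow_left₀ (by norm_num)
    (show 10 ≤ X by linarith) 3)
  have y3 : 1000 * Y ≤ X ^ 3 * Y := by nlinarith
  have y4 : 1000 * (X ^ 3 * Y) ≤ X ^ (s + 10) := by rw [y2]; nlinarith
  generalize X ^ (s + 10) = X' at y4
  have γ0 : 0 < γ := by linarith
  have hG : (sig ^ 2 • (1 : Matrix (Fin r) (Fin r) ℝ)).PosDef := PosDef.one.smul (by positivity)
  have t0 := th_pos hG 0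
  have p0 : 0 ≤ θ ^ (cells (Prod.fst : Wv n p → Fin n)).card := pow_nonneg h.t0 _
  have e1 : ∀ z, |PG Z f z| ≤ exp Y := fun z => by rw [abs_of_nonneg (b1 z).1]; exact (b1 z).2
  have e2 : ∀ z, |EG Z f θ z| ≤ exp Y := fun z =>
    abs_le.2 ⟨by unfold EG; linarith [(b1 z).1], by unfold EG; linarith [(b1 z).2]⟩
  have H0 : 1 ≤ sig * (2 * Y) := by nlinarith
  have H1 : 1 ≤ ⌈sig * (2 * Y)⌉₊ := Nat.ceil_pos.2 (by linarith)
  have H2 : (⌈sig * (2 * Y)⌉₊ : ℝ) ≤ exp (3 * Y) := by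
    refine (Nat.ceil_lt_add_one (by linarith)).le.trans (le_trans ?_ ((mul_exp (by positivity)
      (le_exp (a := 4) Y (by linarith)) (mul_exp (exp_pos _).le (le_refl (exp Y))
        (le_refl (exp Y)))).trans_eq (by ring_nf)))
    nlinarith [mul_le_mul (k3.trans (exp_le_exp.2 y1)) (le_exp (a := Y) Y (by linarith))
      (by linarith) (exp_pos Y).le]
  have ex : ∀ K w z, exc Z (EG Z f θ) γ sig K ξ w z = (∑' t, wT Z γ w t *
      ch Z (EG Z f θ) w (z + t) * thK (sig ^ 2 • 1) K (ξ w *ᵥ toR t)) / th (sig ^ 2 • 1) 0 :=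
    fun K w z => by
      rw [← tsum_div_const]
      exact tsum_congr fun t => by unfold kr; ring
  have key : ∀ w z, Ω w z → ∃ σ : Sel (Fin r), σ.Bd ⌈sig * (2 * Y)⌉₊ ∧
      exp (-X') ≤ exc Z (EG Z f θ) γ sig σ.K ξ w z ∧
      ∀ a, exp (-X) / 4 ≤ ‖cor Z (EG Z f θ) γ w z (frq σ ξ a w)‖ := fun w z hΩ => by
    obtain ⟨σ, c1, c2, c3⟩ := drop_pt hG (summ_ch h.ok h.zok γ0 e2 w z) (fun t => ξ w *ᵥ toR t)
      (η := exp (-X) / 4) (R := 4 * Y) ((l1_ch h.ok h.zok γ0 e2 w z).trans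
        (mul_le_mul_of_nonneg_left (k5 w z hΩ).2 (exp_pos Y).le)) (by positivity) H1 fun i => by
      refine le_trans ?_ (pow_le_pow_left₀ (by linarith) (Nat.le_ceil _) 2)
      simp only [Matrix.smul_apply, one_apply_eq, smul_eq_mul]
      nlinarith [mul_le_mul_of_nonneg_left (show Y ≤ Y ^ 2 by nlinarith) (sq_nonneg sig)]
    refine ⟨σ, c1, ?_, fun a => by simpa only [cor, frq, ← dotProduct_mulVec, ht] using c2 a⟩
    have c4 := k6 w z hΩ
    rw [ex, le_div_iff₀ t0] at c4 ⊢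
    simp only [thK_top hG] at c4
    have c5 : exp Y * exp X * (exp (-(π * (4 * Y) / 2)) * √2 ^ Fintype.card (Fin r)) * 4 ≤
        exp (-X) := by
      refine (mul_exp (by norm_num) (mul_exp (by positivity) (mul_exp (exp_pos _).le le_rfl le_rfl)
        (mul_exp (by positivity) le_rfl (pow_exp (b := X) (sqrt_nonneg 2) (le_exp 1
          (Real.sqrt_le_iff.2 ⟨by norm_num, by norm_num⟩)) one_pos.le (by simpa using k1))))
        (le_exp 3 (by norm_num))).trans (exp_le_exp.2 ?_)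
      nlinarith [pi_gt_three]
    have c6 := mul_le_mul_of_nonneg_left (tl_le hG (4 * Y)) (show 0 ≤ exp Y * exp X by positivity)
    have c7 : exp (-X') * 2 ≤ exp (-X) := (mul_exp (by norm_num) le_rfl
      (le_exp 1 (by norm_num))).trans (exp_le_exp.2 (by linarith))
    nlinarith
  obtain ⟨Fs, f1, f2⟩ := exists_sels (Fin r) _ H1
  obtain ⟨K, hK⟩ := bdd_L (cl := cU) (m := n + 2) h.ok h.zok
  have pg := fun {Λ : Type} {c : ℝ} => pig2 (Λ := Λ) (c := c) (summ_P h.ok h.zok)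
    (fun _ => ng_nonneg _ _) (summ_L h.ok h.zok) (fun _ _ => ng_nonneg _ _) hK
  have nn : ∀ Ω : (Pg T n p R → ℤ) → (Lg T n p R → ℤ) → Prop,
      0 ≤ ∑' w, wP Z w * ∑' z, wL Z w z * ind (Ω w z) := fun _ => tsum_nonneg fun _ =>
    mul_nonneg (ng_nonneg _ _) (tsum_nonneg fun _ => mul_nonneg (ng_nonneg _ _) (ind_nonneg _))
  obtain ⟨σ, hσ, m1⟩ := pg (Fs.filter fun σ => σ.Bd ⌈sig * (2 * Y)⌉₊) (fun w z hΩ =>
    (key w z hΩ).imp fun σ a => ⟨mem_filter.2 ⟨f1 σ a.1, a.1⟩, a.2⟩) (exp_pos _) k4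
  have bd := (mem_filter.1 hσ).2
  rw [Fintype.card_fin] at f2
  have m2 := le_of_card (nn _) m1 (le_trans (by exact_mod_cast (card_filter_le _ _).trans f2)
    (card_sels k1 H2 (by linarith) y1))
  obtain ⟨β, -, m3⟩ := pg (univ : Finset (Fin σ.t → Prop)) (Q := fun β w z => ∀ a, exp (-X') ≤
    ‖cor Z (if β a then PG Z f else fun _ => 1) γ w z (frq σ ξ a w)‖) (fun w z hΩ =>
      ⟨fun a => exp (-X') ≤ ‖cor Z (PG Z f) γ w z (frq σ ξ a w)‖, mem_univ _, fun a => by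
        split_ifs with c1
        · exact c1
        have c2 := hΩ.2.2 a
        rw [show EG Z f θ = fun z => PG Z f z - _ from rfl, cor_sub h.ok h.zok γ0 e1] at c2
        have c3 := c2.trans (norm_sub_le _ _)
        rw [norm_mul, Complex.norm_real, Real.norm_of_nonneg p0] at c3
        have c4 : exp (-X') * (exp Y * 8) ≤ exp (-X) := (mul_exp (by positivity) le_rfl
          (mul_exp (by norm_num) le_rfl (le_exp 7 (by norm_num)))).trans
            (exp_le_exp.2 (by linarith))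
        have c5 := one_le_exp (show 0 ≤ Y by linarith)
        refine le_of_mul_le_mul_left ?_ (exp_pos Y)
        nlinarith [mul_le_mul_of_nonneg_right b2
          (norm_nonneg (cor Z (fun _ => 1) γ w z (frq σ ξ a w))), exp_pos (-X')]⟩) (exp_pos _) m2
  have m4 := le_of_card (nn _) m3 (b := X) (by
    rw [card_univ, Fintype.card_fun, Fintype.card_prop, Fintype.card_fin, Nat.cast_pow]
    exact (pow_exp (Nat.cast_nonneg _) (le_exp 1 (by norm_num)) one_pos.le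
      (le_trans (by exact_mod_cast bd.ht.trans_eq (Fintype.card_fin r)) k1)).trans_eq (by ring_nf))
  have xx : X ≤ X' := by linarith
  refine ⟨σ, fun a => if β a then PG Z f else fun _ => 1, _, k1.trans xx, k2,
    k3.trans (exp_le_exp.2 xx), ⟨_, bd, H2.trans (exp_le_exp.2 (by linarith))⟩, fun a => ?_,
    ⟨le_trans (exp_le_exp.2 (by linarith)) m4, fun w z a => ⟨(k5 w z a.1.1).1,
      (k5 w z a.1.1).2.trans (exp_le_exp.2 xx)⟩⟩, fun w z a => ⟨a.1.2.1, a.2⟩⟩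
  dsimp only
  split_ifs
  exacts [Or.inl rfl, Or.inr rfl]

end

end Vale.Agent.P057DR
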