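import Vale.Agent.P057DR.Fib
import Vale.Agent.P057SY.Plan
import Vale.Agent.P057GH.Grid
import Vale.Agent.P057PC.Cub

/-!
Only frequencies with a correlation are kept.
-/

set_option linter.all false

open Matrix Finset
open scoped Real
open Vale.Agent.P267.H775 Vale.Agent.P057G Vale.Agent.P057TP Vale.Agent.P057SY
open Vale.Agent.P057DP (thK Sel tl cb tl_le exists_sels)

namespace Vale.Agent.P057DR

noncomputable section

section num

variable {Y : ℝ}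

theorem le_ex1 (x : ℝ) : x ≤ Real.exp x := by linarith [Real.add_one_le_exp x]

theorem exp_pow_le {x y : ℝ} {n : ℕ} (hx : 0 ≤ x) (hn : (n : ℝ) ≤ y) :
    Real.exp x ^ n ≤ Real.exp (x * y) := by
  rw [← Real.exp_nat_mul, mul_comm]
  exact Real.exp_le_exp.2 (mul_le_mul_of_nonneg_left hn hx)

theorem ceil_le (hY : 1 ≤ Y) : (⌈Real.exp (2 * Y)⌉₊ : ℝ) ≤ Real.exp (3 * Y) := by
  have h1 := (Nat.ceil_lt_add_one (Real.exp_pos (2 * Y)).le).le
  have h2 : 1 ≤ Real.exp (2 * Y) := Real.one_le_exp (by linarith)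
  have h3 := Real.add_one_le_exp Y
  rw [show 3 * Y = 2 * Y + Y by ring, Real.exp_add]
  nlinarith

theorem cb_le {J : Type} [Fintype J] {H : ℕ} (hY : 1 ≤ Y) (hJ : (Fintype.card J : ℝ) ≤ Y)
    (hH : (H : ℝ) ≤ Real.exp (3 * Y)) : (cb J H : ℝ) ≤ Real.exp (4 * Y * Y) := by
  have h1 : ((Fintype.card J).factorial : ℝ) ≤ (Fintype.card J : ℝ) ^ Fintype.card J := by
    exact_mod_cast Nat.factorial_le_pow _
  have h2 : (Fintype.card J : ℝ) ^ Fintype.card J ≤ Real.exp Y ^ Fintype.card J :=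
    pow_le_pow_left₀ (Nat.cast_nonneg _) (hJ.trans (le_ex1 Y)) _
  have h3 : (H : ℝ) ^ Fintype.card J ≤ Real.exp (3 * Y) ^ Fintype.card J :=
    pow_le_pow_left₀ (Nat.cast_nonneg _) hH _
  rw [cb, Nat.cast_mul, Nat.cast_pow]
  refine (mul_le_mul (h1.trans h2) h3 (by positivity) (by positivity)).trans ?_
  rw [← mul_pow, ← Real.exp_add, show Y + 3 * Y = 4 * Y by ring]
  exact exp_pow_le (by linarith) hJ

theorem cnt_le {J : Type} [Fintype J] {H N : ℕ} (hY : 2 ≤ Y) (hJ : (Fintype.card J : ℝ) ≤ Y)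
    (hH : (H : ℝ) ≤ Real.exp (3 * Y))
    (hN : N ≤ (Fintype.card J + 1) * (2 * cb J H + 1) ^ (2 * Fintype.card J ^ 2 + 1)) :
    (N : ℝ) ≤ Real.exp (16 * Y ^ 4) := by
  have h1 := cb_le (by linarith) hJ hH
  have h2 : ((2 * cb J H + 1 : ℕ) : ℝ) ≤ Real.exp (5 * Y * Y) := by
    have a1 : 1 ≤ Real.exp (4 * Y * Y) := Real.one_le_exp (by positivity)
    have a2 := Real.add_one_le_exp (Y * Y)
    have a3 : 4 ≤ Y * Y := by nlinarith
    rw [show 5 * Y * Y = 4 * Y * Y + Y * Y by ring, Real.exp_add]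
    push_cast
    nlinarith
  have h3 : ((2 * Fintype.card J ^ 2 + 1 : ℕ) : ℝ) ≤ 3 * Y * Y := by
    have a1 : (0 : ℝ) ≤ Fintype.card J := Nat.cast_nonneg _
    push_cast
    nlinarith
  have h4 : ((Fintype.card J + 1 : ℕ) : ℝ) ≤ Real.exp Y := by
    push_cast
    linarith [Real.add_one_le_exp Y]
  have h5 : (N : ℝ) ≤ ((Fintype.card J + 1 : ℕ) : ℝ) *
      ((2 * cb J H + 1 : ℕ) : ℝ) ^ (2 * Fintype.card J ^ 2 + 1) := by exact_mod_cast hN
  refine h5.trans ((mul_le_mul h4 ((pow_le_pow_left₀ (Nat.cast_nonneg _) h2 _).trans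
    (exp_pow_le (by positivity) h3)) (by positivity) (by positivity)).trans ?_)
  rw [← Real.exp_add, Real.exp_le_exp]
  have a1 : 1 ≤ Y ^ 3 := one_le_pow₀ (by linarith)
  nlinarith

theorem err_le {r : ℕ} (hY : 1 ≤ Y) (hr : (r : ℝ) ≤ Y) :
    Real.exp (2 * Y * Y) * (Real.exp (-(π * (4 * Y * Y) / 2)) * √2 ^ r) ≤ Real.exp (-Y) / 4 := by
  have h1 : √2 ≤ Real.exp 1 := by
    rw [Real.sqrt_le_left (by positivity)]
    nlinarith [Real.add_one_le_exp 1]
  have h2 : √2 ^ r ≤ Real.exp (1 * Y) :=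
    (pow_le_pow_left₀ (by positivity) h1 r).trans (exp_pow_le zero_le_one hr)
  have h3 : 4 ≤ Real.exp 2 := by
    rw [show (2 : ℝ) = 1 + 1 by norm_num, Real.exp_add]
    nlinarith [Real.add_one_le_exp 1]
  rw [le_div_iff₀ (by norm_num)]
  refine (mul_le_mul (mul_le_mul_of_nonneg_left (mul_le_mul_of_nonneg_left h2 (by positivity))
    (by positivity)) h3 (by norm_num) (by positivity)).trans ?_
  rw [← Real.exp_add, ← Real.exp_add, ← Real.exp_add, Real.exp_le_exp]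
  have := Real.pi_gt_three
  have h4 : 1 ≤ Y * Y := by nlinarith
  nlinarith

theorem exp_cancel {a b x k : ℝ} (h : Real.exp a ≤ k * (Real.exp b * x)) {c : ℝ}
    (hk : k ≤ Real.exp c) (hx : 0 ≤ x) : Real.exp (a - b - c) ≤ x := by
  have h1 := h.trans (mul_le_mul_of_nonneg_right hk (by positivity))
  rw [Real.exp_sub, Real.exp_sub, div_div, div_le_iff₀ (by positivity)]
  linarith

theorem gram_le (hY : 1 ≤ Y) {g : ℝ} (hg : g ≤ Real.exp Y) :
    g * (4 * Y * Y) ≤ (⌈Real.exp (2 * Y)⌉₊ : ℝ) ^ 2 := by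
  have a1 := pow_le_pow_left₀ (Real.exp_pos _).le (Nat.le_ceil (Real.exp (2 * Y))) 2
  refine le_trans ?_ a1
  have a2 := Real.add_one_le_exp Y
  have a3 : 4 * Y * Y ≤ Real.exp Y ^ 3 :=
    le_trans (by nlinarith [mul_nonneg (mul_self_nonneg Y) (sub_nonneg.2 hY)])
      (pow_le_pow_left₀ (by linarith) a2 3)
  rw [← Real.exp_nat_mul] at a3 ⊢
  refine (mul_le_mul hg a3 (by positivity) (by positivity)).trans (le_of_eq ?_)
  rw [← Real.exp_add]; congr 1; push_cast; ring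

theorem pw_le {c : ℕ} (hY : 30 ≤ Y) (hc : 5 ≤ c) :
    30 * Y ^ 4 ≤ Y ^ c ∧ Y * Y ≤ Y ^ 4 ∧ 30 * Y ≤ Y * Y := by
  have y1 : 1 ≤ Y := by linarith
  have a1 : Y ^ 5 ≤ Y ^ c := pow_le_pow_right₀ y1 hc
  have a2 : 0 ≤ Y ^ 4 := by positivity
  have a3 := pow_le_pow_right₀ y1 (show 2 ≤ 4 by norm_num)
  exact ⟨by nlinarith, by nlinarith, by nlinarith⟩

theorem two_exp {x : ℝ} (hx : 1 ≤ x) : 2 * Real.exp x ≤ Real.exp (x + x) := by
  rw [Real.exp_add]
  exact mul_le_mul_of_nonneg_right (by linarith [Real.add_one_le_exp x]) (by positivity)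

theorem st_num {Q Q' μ A A₀ κ t : ℝ} {n : ℕ} (hQ : 6 + Y + Q ≤ Q') (hμ : 1 / 2 ≤ μ)
    (hκ : Real.exp (-Y) ≤ κ) (hA : κ * μ ≤ A₀) (ht : t ≤ Real.exp (-Y) / 4)
    (k1 : A₀ - (Real.exp (-Y) / 4 + t) * μ ≤ n * A) (hn : (n : ℝ) ≤ Real.exp Q) :
    Real.exp (-Y - Q - 4) ≤ A ∧ Real.exp (-Q') ≤ A - μ * Real.exp (-Q') := by
  have μ0 : 0 ≤ μ := by linarith
  have x0 := Real.exp_pos (-Y)
  have k3 : Real.exp (-Y) / 2 * μ ≤ n * A := by
    have a1 := mul_le_mul_of_nonneg_right hκ μ0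
    have a2 := mul_le_mul_of_nonneg_right ht μ0
    linarith
  have A0 : 0 ≤ A := by
    by_contra h
    have := mul_nonpos_of_nonneg_of_nonpos (Nat.cast_nonneg (α := ℝ) n) (not_le.1 h).le
    nlinarith
  have k4 := k3.trans (mul_le_mul_of_nonneg_right hn A0)
  refine ⟨exp_cancel (k := 4) (by nlinarith) (le_ex1 4) A0, ?_⟩
  have a1 : Real.exp Q * (Real.exp (-Q') * 6) ≤ Real.exp (-Y) := by
    refine (mul_le_mul_of_nonneg_left (mul_le_mul_of_nonneg_left (le_ex1 6) (by positivity))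
      (by positivity)).trans ?_
    rw [← Real.exp_add, ← Real.exp_add, Real.exp_le_exp]
    linarith
  have a2 := Real.exp_pos (-Q')
  refine le_of_mul_le_mul_left ?_ (Real.exp_pos Q)
  have a3 := mul_le_mul_of_nonneg_right a1 μ0
  have a4 := mul_le_mul_of_nonneg_left hμ (mul_pos (Real.exp_pos Q) a2).le
  nlinarith

theorem cor_num {a b A x : ℝ} (hA : Real.exp a ≤ A) (hx : 0 ≤ x)
    (h : Real.exp (-Y) / 4 * A ≤ Real.exp b * x) : Real.exp (-Y + a - b - 4) ≤ x := by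
  refine exp_cancel (k := 4) ?_ (le_ex1 4) hx
  rw [Real.exp_add]
  have := mul_le_mul_of_nonneg_left hA (Real.exp_pos (-Y)).le
  linarith

end num

variable {C W : Type} [Fintype W] [DecidableEq W] {T : Tow} {cl : W → C} {m : ℕ}

/-- the labels on the faces of `W` -/
def wp (z : Lb T cl Unit m → ℤ) (l : Lb T cl Unit m) : ℤ := if l.bs = none then z l else 0

theorem wo_wp {α : Type} (v : (Lb T cl Unit m → ℤ) → α) : WO fun z => v (wp z) :=
  fun z z' h => congrArg v (funext fun l => by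
    unfold wp
    split_ifs with k
    exacts [h l k, rfl])

theorem wp_eq {α : Type} {v : (Lb T cl Unit m → ℤ) → α} (h : WO v) (z : Lb T cl Unit m → ℤ) :
    v (wp z) = v z := h _ _ fun l k => if_pos k

theorem F_pt (Z : Sys T W Unit) (f : ℤ → ℝ) {z z' : Lb T cl Unit m → ℤ} {c : Finset W}
    (h : pt z (some ()) c = pt z' (some ()) c) : Z.F cl m f z c () = Z.F cl m f z' c () := by
  have : Sys.full cl m z c () = Sys.full cl m z' c () := by
    funext y a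
    unfold Sys.full
    rw [h]
  unfold Sys.F
  rw [this]

theorem exists_g (Z : Sys T W Unit) (f : ℤ → ℝ) {Y : ℝ}
    (hF : ∀ z c, |Z.F cl m f z c ()| ≤ Real.exp Y) :
    ∃ g : Finset W → (T.ι → ℤ) → ℝ, (∀ c y, |g c y| ≤ 1) ∧ ∀ z : Lb T cl Unit m → ℤ,
      Z.PF cl m f z = Real.exp Y ^ (cells cl).card * ∏ c ∈ cells cl, g c (pt z (some ()) c) := by
  classical
  have e0 := Real.exp_pos Y
  refine ⟨fun c y => if h : ∃ z : Lb T cl Unit m → ℤ, pt z (some ()) c = y then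
    Z.F cl m f h.choose c () / Real.exp Y else 0, fun c y => ?_, fun z => ?_⟩
  · beta_reduce
    split_ifs
    · rw [abs_div, abs_of_pos e0, div_le_one e0]; exact hF _ _
    · simp
  · rw [← prod_const, ← prod_mul_distrib]
    refine prod_congr rfl fun c _ => ?_
    have h : ∃ z' : Lb T cl Unit m → ℤ, pt z' (some ()) c = pt z (some ()) c := ⟨z, rfl⟩
    beta_reduce
    rw [dif_pos h, F_pt Z f h.choose_spec, mul_div_cancel₀ _ e0.ne']
    simp

theorem abs_prod_le {α : Type} (s : Finset α) {g : α → ℝ} (h : ∀ a, |g a| ≤ 1) :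
    |∏ a ∈ s, g a| ≤ 1 := by
  rw [abs_prod]
  exact prod_le_one (fun _ _ => abs_nonneg _) fun a _ => h a

/-- a correlation of the excess gives a correlation of a product -/
theorem cor_of {E : Type} [Fintype E] [DecidableEq E] {Z : Sys T W Unit}
    {X : Xt (Option W) (Lb T cl Unit m) E} {n : (Lb T cl Unit m → ℤ) → E → ℤ}
    {φ : (Lb T cl Unit m ⊕ E → ℝ) → ℝ} {f : ℤ → ℝ} {θ Y Y' : ℝ} (hw : Summable (Z.w cl m))
    (hF : ∀ z c, |Z.F cl m f z c ()| ≤ Real.exp Y) (h0 : 0 ≤ θ) (h1 : θ ≤ Real.exp Y)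
    {β : (Lb T cl Unit m → ℤ) → ℂ} (b1 : WO β) (b2 : ∀ z, ‖β z‖ ≤ 1)
    (b3 : ∀ z, β z ≠ 0 → Ps X z (n z) (Real.exp Y'))
    (h : 2 * Real.exp Y ^ (cells cl).card * Real.exp (-Y') ≤
      ‖∑' z, (Z.w cl m z : ℂ) * (β z * (Z.Ex0 cl m f θ z * ee (φ (jn z (n z)))))‖) :
    Cor Z X n φ Y' := by
  obtain ⟨g, g1, g2⟩ := exists_g Z f hF
  have sm : ∀ g : Finset W → (T.ι → ℤ) → ℝ, (∀ c y, |g c y| ≤ 1) → Summable fun z =>
      (Z.w cl m z : ℂ) * (β z * ((∏ c ∈ cells cl, g c (pt z (some ()) c) : ℝ) *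
        ee (φ (jn z (n z))))) := fun g hg =>
    summable_mul_cx hw (P057GH.w_nonneg Z) (C := 1) fun z => by
      rw [norm_mul, norm_mul, norm_ee, mul_one, Complex.norm_real]
      exact mul_le_one₀ (b2 z) (norm_nonneg _) (abs_prod_le _ fun c => hg c _)
  by_contra hc
  have k1 := not_le.1 fun k => hc ⟨β, g, b1, b2, b3, g1, k⟩
  have k2 := not_le.1 fun k => hc ⟨β, fun _ _ => 1, b1, b2, b3, fun _ _ => abs_one.le, k⟩
  have e := (((sm g g1).hasSum.mul_left ((Real.exp Y ^ (cells cl).card : ℝ) : ℂ)).sub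
    ((sm (fun _ _ => 1) fun _ _ => abs_one.le).hasSum.mul_left
      ((θ ^ (cells cl).card : ℝ) : ℂ))).tsum_eq
  have e2 : ∀ z, (Z.w cl m z : ℂ) * (β z * (Z.Ex0 cl m f θ z * ee (φ (jn z (n z))))) =
      ((Real.exp Y ^ (cells cl).card : ℝ) : ℂ) * ((Z.w cl m z : ℂ) *
        (β z * ((∏ c ∈ cells cl, g c (pt z (some ()) c) : ℝ) * ee (φ (jn z (n z)))))) -
      ((θ ^ (cells cl).card : ℝ) : ℂ) * ((Z.w cl m z : ℂ) *
        (β z * ((∏ c ∈ cells cl, (1 : ℝ) : ℝ) * ee (φ (jn z (n z)))))) := fun z => by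
    rw [Sys.Ex0, g2, Fintype.card_unit, mul_one, prod_const_one, Complex.ofReal_sub,
      Complex.ofReal_mul, Complex.ofReal_one]
    ring
  rw [tsum_congr e2, e] at h
  have h2 := h.trans (norm_sub_le _ _)
  have p1 : 0 < Real.exp Y ^ (cells cl).card := by positivity
  have p2 : θ ^ (cells cl).card ≤ Real.exp Y ^ (cells cl).card := pow_le_pow_left₀ h0 h1 _
  rw [norm_mul, norm_mul, Complex.norm_real, Complex.norm_real, Real.norm_of_nonneg p1.le,
    Real.norm_of_nonneg (pow_nonneg h0 _)] at h2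
  have h3 := mul_lt_mul_of_pos_left k1 p1
  have h4 := mul_le_mul p2 k2.le (norm_nonneg _) p1.le
  linarith

theorem abs_ex0 (Z : Sys T W Unit) {f : ℤ → ℝ} {θ Y : ℝ}
    (hF : ∀ z c, |Z.F cl m f z c ()| ≤ Real.exp Y) (h0 : 0 ≤ θ) (h1 : θ ≤ Real.exp Y)
    (z : Lb T cl Unit m → ℤ) : |Z.Ex0 cl m f θ z| ≤ 2 * Real.exp Y ^ (cells cl).card := by
  obtain ⟨g, g1, g2⟩ := exists_g Z f hF
  have p1 : 0 < Real.exp Y ^ (cells cl).card := by positivity
  have p2 : θ ^ (cells cl).card ≤ Real.exp Y ^ (cells cl).card := pow_le_pow_left₀ h0 h1 _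
  rw [Sys.Ex0, g2, Fintype.card_unit, mul_one]
  refine (abs_sub _ _).trans ?_
  rw [abs_mul, abs_of_pos p1, abs_of_nonneg (pow_nonneg h0 _)]
  have := mul_le_of_le_one_right p1.le
    (abs_prod_le (cells cl) fun c => g1 c (pt z (some ()) c))
  linarith

theorem mass_ge {s : ℕ} {N Y Q : ℝ} {Z : Sys T W Unit} (hT : T.Ok s N) (hZ : Z.Ok)
    (hL : T.LFd (m - 1) Q Q) (hW : (Fintype.card W : ℝ) ≤ Y) (hY : 2 ≤ Y)
    (hs : ((s : ℝ) + 1) ^ s ≤ Y) (hQ : 2 * (Y * Y) ≤ Q) : 1 / 2 ≤ ∑' z, Z.w cl m z := by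
  have yy : 2 * Y ≤ Y * Y := by nlinarith
  have a1 := P057GH.mass_cub (cl := cl) (m := m) P057PC.cub hT hZ (d := m - 1) (by omega) hL
    (by rw [Fintype.card_unit]; push_cast; linarith)
    (by
      rw [Fintype.card_unit]
      refine le_trans ?_ (le_ex1 _)
      have := mul_le_mul (show (Fintype.card W + (1 : ℕ) + 1 : ℝ) ≤ 2 * Y by push_cast; linarith)
        hs (by positivity) (by positivity)
      linarith)
  have a2 : Real.exp (-Q) ≤ 1 / 2 := by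
    rw [Real.exp_neg, one_div]
    exact inv_anti₀ (by norm_num) (by linarith [Real.add_one_le_exp Q])
  linarith [(abs_le.1 a1).1]

/-- **only frequencies with a correlation are kept** -/
theorem drp (s : ℕ) : DRP s := by
  refine ⟨(s + 1) ^ s + 30, ?_⟩
  intro N T C W E J _ _ _ _ _ _ cl m b τ Z D f θ B κ σ Y hT hZ hD hW hc hY h0 h4 hF hκ hσ hL hS
  generalize hc' : (s + 1) ^ s + 30 = c at *
  have c1 : (30 : ℝ) ≤ Y := le_trans (by exact_mod_cast hc' ▸ Nat.le_add_left _ _) hY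
  have c2 : ((s : ℝ) + 1) ^ s ≤ Y :=
    le_trans (by exact_mod_cast hc' ▸ Nat.le_add_right _ _) hY
  have y1 : 1 ≤ Y := by linarith
  obtain ⟨y5, y2, yy⟩ := pw_le c1 (show 5 ≤ c by omega)
  have hθ : θ ≤ Real.exp Y := by linarith [le_ex1 Y]
  have hw := P057GH.summable_w (cl := cl) (m := m) hT hZ
  have w0 := P057GH.w_nonneg (cl := cl) (m := m) Z
  have hμ := mass_ge (cl := cl) hT hZ hL hW (by linarith) c2 (by linarith)
  have hM0 : 2 * Real.exp Y ^ (cells cl).card ≤ Real.exp (2 * Y * Y) :=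
    (mul_le_mul_of_nonneg_left (exp_pow_le (by linarith) hc) zero_le_two).trans
      ((two_exp (by linarith)).trans_eq (by congr 1; ring))
  have he : ∀ z, |Z.Ex0 cl m f θ z| ≤ Real.exp (2 * Y * Y) := fun z =>
    (abs_ex0 Z hF h0 hθ z).trans hM0
  have H1 : 1 ≤ ⌈Real.exp (2 * Y)⌉₊ := Nat.one_le_ceil_iff.2 (Real.exp_pos _)
  have H2 := ceil_le y1
  obtain ⟨F, hF1, hF2⟩ := exists_sels J _ H1
  obtain ⟨p, v, n, p1, n1, v0, k1, k2⟩ := fib_drop hD.pd D.K wp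
    (fun z => D.Φ (jn z (D.n z)) - D.γ z) (η := Real.exp (-Y) / 4) (R := 4 * Y * Y) hw w0 he
    (Real.exp_pos _).le hD.u01 (by positivity) H1 (fun j => gram_le y1 (hD.gk j)) hF1
  have n2 := cnt_le (by linarith) hD.cj H2 (n1.trans hF2)
  simp only [wp_eq hD.wu] at k1
  have hA : κ * ∑' z, Z.w cl m z ≤ ∑' z, Z.w cl m z * D.H Z f θ z := by
    have a1 := hS.2
    simp only [mul_sub] at a1
    rw [(summable_mul_real hw w0 hS.1).tsum_sub (hw.mul_right κ), tsum_mul_right] at a1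
    linarith
  have hε : Real.exp (2 * Y * Y) * (tl D.Gk (4 * Y * Y) / th D.Gk 0) ≤ Real.exp (-Y) / 4 := by
    refine le_trans (mul_le_mul_of_nonneg_left ?_ (Real.exp_pos _).le) (err_le y1 hD.cj)
    rw [div_le_iff₀ (th_pos hD.pd 0)]
    exact tl_le hD.pd _
  obtain ⟨k3, k4⟩ := st_num (Q' := Y ^ c) (by linarith) hμ hκ hA hε k1 n2
  have bH : ∀ z, |(D.cut (fun z => v (wp z)) p.K).H Z f θ z| ≤ Real.exp (2 * Y * Y) := fun z =>
    (abs_three (v0 _).1 (abs_ker_le hD.pd _ _) (he z)).trans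
      (mul_le_of_le_one_right (Real.exp_pos _).le (v0 _).2.1)
  refine ⟨p, _, fun z => v (wp z), p1, H1, H2.trans (Real.exp_le_exp.2 (by linarith)),
    ⟨hD.ok, hD.sz, hD.tf, hD.cj, hD.dg, hD.pd, hD.gk, wo_wp v, hD.wn, hD.wg,
      fun z => ⟨(v0 _).1, (v0 _).2.1⟩, fun z h => hD.ps z (wp_eq hD.wu z ▸ (v0 _).2.2 h)⟩,
    ⟨fun z => (bH z).trans (Real.exp_le_exp.2 (by linarith)), ?_⟩, fun a => ?_⟩
  · simp only [mul_sub]
    rw [(summable_mul_real hw w0 bH).tsum_sub (hw.mul_right _), tsum_mul_right]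
    exact k4
  · obtain ⟨β, β1, β2⟩ := k2 a
    have hy : Real.exp Y ≤ Real.exp (Y ^ c) := Real.exp_le_exp.2 (by linarith)
    refine cor_of hw hF h0 hθ (β := fun z => β (wp z) * ee (-(toR (p.b a) ⬝ᵥ D.γ z)))
      (fun z z' h => congrArg₂ (fun x y => x * ee (-(toR (p.b a) ⬝ᵥ y))) (wo_wp β z z' h)
        (hD.wg z z' h))
      (fun z => by rw [norm_mul, norm_ee, mul_one]; exact (β1 _).1)
      (fun z h => le_trans (hD.ps z (wp_eq hD.wu z ▸ (β1 _).2 (left_ne_zero_of_mul h))) hy) ?_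
    have e3 : ∀ z, (Z.w cl m z : ℂ) * (β (wp z) * ee (-(toR (p.b a) ⬝ᵥ D.γ z)) *
        (Z.Ex0 cl m f θ z * ee (toR (p.b a) ⬝ᵥ D.Φ (jn z (D.n z))))) = (Z.w cl m z : ℂ) *
        (β (wp z) * (Z.Ex0 cl m f θ z * ee (toR (p.b a) ⬝ᵥ (D.Φ (jn z (D.n z)) - D.γ z)))) :=
      fun z => by rw [dotProduct_sub, sub_eq_add_neg, ee_add]; ring
    rw [tsum_congr e3]
    refine le_trans ?_ (cor_num k3 (norm_nonneg _) β2)
    refine (mul_le_mul_of_nonneg_right hM0 (Real.exp_pos _).le).trans ?_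
    rw [← Real.exp_add, Real.exp_le_exp]
    linarith

end

end Vale.Agent.P057DR
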