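import Vale.Agent.P057DP.Pd2

/-!
Dropping of frequencies relative to a start kernel, fibre by fibre.
-/

set_option linter.all false

open Matrix Finset
open scoped Real Classical
open Vale.Agent.P267.H775 Vale.Agent.P057G Vale.Agent.P057DP

namespace Vale.Agent.P057DR

noncomputable section

variable {ι : Type} [Fintype ι] [DecidableEq ι] {G : Matrix ι ι ℝ}

/-- dropping the frequencies of `K` outside `K'` -/
theorem drop_inf (hG : G.PosDef) (K K' : Submodule ℤ (ι → ℤ)) {S : Type} {h : S → ℝ}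
    (hh : Summable h) (u : S → ι → ℝ) {B η R : ℝ} (hB : ∑' s, |h s| ≤ B) (hη : 0 ≤ η)
    (hK : ∀ k, k ∉ K' → qq G⁻¹ (toR k) < R → ‖ht h u k‖ ≤ η) :
    |∑' s, h s * thK G K (u s) - ∑' s, h s * thK G (K ⊓ K') (u s)| ≤ η * th G 0 + B * tl G R := by
  have hB0 : 0 ≤ B := (tsum_nonneg fun s => abs_nonneg _).trans hB
  refine ((hasSum_swap hG K hh u).sub (hasSum_swap hG (K ⊓ K') hh u)).norm_le_of_bounded
    (((hasSum_cf hG).mul_left η).add ((summable_tl hG R).hasSum.mul_left B)) fun k => ?_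
  have hc := cf_pos hG k
  have hr : |(ht h u k).re| ≤ ‖ht h u k‖ := Complex.abs_re_le_norm _
  have z0 : 0 ≤ η * cf G k + B * if R ≤ qq G⁻¹ (toR k) then cf G k else 0 := by
    split_ifs <;> positivity
  by_cases h1 : k ∈ K
  · by_cases hk : k ∈ K'
    · rw [if_pos h1, if_pos (Submodule.mem_inf.2 ⟨h1, hk⟩), sub_self, norm_zero]
      exact z0
    · rw [if_pos h1, if_neg fun n => hk (Submodule.mem_inf.1 n).2, sub_zero, Real.norm_eq_abs,
        abs_mul, abs_of_pos hc]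
      split_ifs with hR
      · have := hr.trans ((norm_ht_le hh u k).trans hB)
        nlinarith [mul_nonneg hη hc.le]
      · have := hr.trans (hK k hk (not_le.1 hR))
        nlinarith
  · rw [if_neg h1, if_neg fun n => h1 (Submodule.mem_inf.1 n).1, sub_self, norm_zero]
    exact z0

/-- pointwise drop with a start kernel -/
theorem drop_pt' (hG : G.PosDef) (K : Submodule ℤ (ι → ℤ)) {S : Type} {h : S → ℝ}
    (hh : Summable h) (u : S → ι → ℝ) {B η R : ℝ} {H : ℕ} (hB : ∑' s, |h s| ≤ B) (hη : 0 ≤ η)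
    (H1 : 1 ≤ H) (hH : ∀ i, G i i * R ≤ (H : ℝ) ^ 2) :
    ∃ σ : Sel ι, σ.Bd H ∧ (∀ a, η ≤ ‖ht h u (σ.b a)‖) ∧
      ∑' s, h s * thK G K (u s) - (η * th G 0 + B * tl G R) ≤
        ∑' s, h s * thK G (K ⊓ σ.K) (u s) := by
  let T := (bx ι H).filter fun k => η ≤ ‖ht h u k‖
  obtain ⟨t, sel, w, D, h1, h2, h3, h4, -, h6⟩ := P057L.crq ι T (fun a => a.1) H H1 fun a r => by
    have := Fintype.mem_piFinset.1 (mem_filter.1 a.2).1 r
    rw [mem_Icc] at this
    exact abs_le.2 this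
  refine ⟨⟨t, fun a => (sel a).1, w, D⟩, ⟨h1, fun a i => ?_, h4, h2, h3⟩,
    fun a => (mem_filter.1 (sel a).2).2, ?_⟩
  · have := Fintype.mem_piFinset.1 (mem_filter.1 (sel a).2).1 i
    rw [mem_Icc] at this
    exact abs_le.2 this
  · have := drop_inf hG K (Sel.K ⟨t, fun a => (sel a).1, w, D⟩) hh u (R := R) hB hη
      fun k hk hR => by
        by_contra hc
        refine hk (h6 ⟨k, mem_filter.2 ⟨Fintype.mem_piFinset.2 fun i => ?_, (not_le.1 hc).le⟩⟩)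
        rw [mem_Icc]
        exact abs_le.1 (entry_le hG hH hR i)
    linarith [(abs_le.1 this).2]

theorem abs_ker_le (hG : G.PosDef) (K : Submodule ℤ (ι → ℤ)) (x : ι → ℝ) :
    |thK G K x / th G 0| ≤ 1 := by
  have := th_pos hG 0
  rw [abs_div, abs_of_pos this, div_le_one this]
  exact abs_thK_le hG K x

theorem abs_three {a b e M : ℝ} (a0 : 0 ≤ a) (hb : |b| ≤ 1) (he : |e| ≤ M) :
    |a * b * e| ≤ M * a := by
  rw [abs_mul, abs_mul, abs_of_nonneg a0]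
  calc a * |b| * |e| ≤ a * 1 * M :=
        mul_le_mul (mul_le_mul_of_nonneg_left hb a0) he (abs_nonneg _) (by positivity)
    _ = _ := by ring

/-- summation fibre by fibre, with a factor that is constant on the fibres -/
theorem hs_fib {S Y E : Type} [NormedField E] [CompleteSpace E] (ρ : S → Y) {f g : S → E}
    (c : Y → E) (hf : Summable f) (e : ∀ s, f s = c (ρ s) * g s) :
    HasSum (fun y => c y * ∑' s : ρ ⁻¹' {y}, g s) (∑' s, f s) := by
  refine hs_congr (hf.hasSum.tsum_fiberwise ρ) fun y => ?_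
  rw [← tsum_mul_left]
  refine tsum_congr fun s => ?_
  rw [e, show ρ s = y from s.2]

/-- **the drop on all fibres**, with one description -/
theorem fib_drop (hG : G.PosDef) (K : Submodule ℤ (ι → ℤ)) {S Y : Type} [Inhabited Y] (ρ : S → Y)
    {w e : S → ℝ} {u : Y → ℝ} (U : S → ι → ℝ) {M η R : ℝ} {H : ℕ} (hw : Summable w)
    (w0 : ∀ s, 0 ≤ w s) (he : ∀ s, |e s| ≤ M) (M0 : 0 ≤ M) (u0 : ∀ y, 0 ≤ u y ∧ u y ≤ 1)
    (hη : 0 ≤ η) (H1 : 1 ≤ H) (hH : ∀ i, G i i * R ≤ (H : ℝ) ^ 2) {F : Finset (Sel ι)}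
    (hF : ∀ σ : Sel ι, σ.Bd H → σ ∈ F) :
    ∃ (σ : Sel ι) (v : Y → ℝ) (N : ℕ), σ.Bd H ∧ N ≤ F.card ∧
      (∀ y, 0 ≤ v y ∧ v y ≤ 1 ∧ (v y ≠ 0 → u y ≠ 0)) ∧
      ∑' s, w s * (u (ρ s) * (thK G K (U s) / th G 0) * e s) -
          (η + M * (tl G R / th G 0)) * ∑' s, w s ≤
        N * ∑' s, w s * (v (ρ s) * (thK G (K ⊓ σ.K) (U s) / th G 0) * e s) ∧
      ∀ a, ∃ β : Y → ℂ, (∀ y, ‖β y‖ ≤ 1 ∧ (β y ≠ 0 → u y ≠ 0)) ∧
        η * ∑' s, w s * (v (ρ s) * (thK G (K ⊓ σ.K) (U s) / th G 0) * e s) ≤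
          M * ‖∑' s, (w s : ℂ) * (β (ρ s) * (e s * ee (toR (σ.b a) ⬝ᵥ U s)))‖ := by
  have t0 := th_pos hG 0
  have swe := summable_mul_real hw w0 he
  have hν : HasSum (fun y => ∑' s : ρ ⁻¹' {y}, w s) (∑' s, w s) := hw.hasSum.tsum_fiberwise ρ
  have ν0 : ∀ y, 0 ≤ ∑' s : ρ ⁻¹' {y}, w s := fun y => tsum_nonneg fun s => w0 s
  have key : ∀ y, ∃ σ : Sel ι, σ.Bd H ∧
      (∀ a, η * ∑' s : ρ ⁻¹' {y}, w s ≤
        ‖ht (fun s : ρ ⁻¹' {y} => w s * e s) (fun s => U s) (σ.b a)‖) ∧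
      ∑' s : ρ ⁻¹' {y}, w s * e s * thK G K (U s) - ((η * ∑' s : ρ ⁻¹' {y}, w s) * th G 0 +
        (M * ∑' s : ρ ⁻¹' {y}, w s) * tl G R) ≤
        ∑' s : ρ ⁻¹' {y}, w s * e s * thK G (K ⊓ σ.K) (U s) := fun y => by
    refine drop_pt' hG K (h := fun s : ρ ⁻¹' {y} => w s * e s) (swe.subtype _) (fun s => U s)
      ?_ (mul_nonneg hη (ν0 y)) H1 hH
    rw [← tsum_mul_left]
    refine ((swe.subtype _).abs).tsum_le_tsum (fun s => ?_) ((hw.subtype _).mul_left M)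
    rw [abs_mul, abs_of_nonneg (w0 s), mul_comm]
    exact mul_le_mul_of_nonneg_right (he s) (w0 s)
  choose p p1 p2 p3 using key
  have sm : ∀ {v : S → ℝ} (L : S → Submodule ℤ (ι → ℤ)), (∀ s, 0 ≤ v s ∧ v s ≤ 1) →
      Summable fun s => w s * (v s * (thK G (L s) (U s) / th G 0) * e s) := fun L hv =>
    summable_mul_real hw w0 (C := M) fun s => (abs_three (hv s).1 (abs_ker_le hG _ _) (he s)).trans
      (mul_le_of_le_one_right M0 (hv s).2)
  obtain ⟨v, hv⟩ : ∃ v : Sel ι → Y → ℝ, v = fun σ y => if p y = σ then u y else 0 := ⟨_, rfl⟩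
  have v0 : ∀ σ y, 0 ≤ v σ y ∧ v σ y ≤ 1 ∧ (v σ y ≠ 0 → u y ≠ 0) := fun σ y => by
    rw [hv]; beta_reduce
    split_ifs
    exacts [⟨(u0 y).1, (u0 y).2, id⟩, ⟨le_rfl, zero_le_one, fun h => (h rfl).elim⟩]
  have h1 : ∑' s, w s * (u (ρ s) * (thK G K (U s) / th G 0) * e s) -
      (η + M * (tl G R / th G 0)) * ∑' s, w s ≤
      ∑' s, w s * (u (ρ s) * (thK G (K ⊓ (p (ρ s)).K) (U s) / th G 0) * e s) := by
    have a1 := hs_fib ρ (g := fun s => w s * e s * thK G K (U s)) (fun y => u y / th G 0)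
      (sm (fun _ => K) fun s => u0 (ρ s)) fun s => by ring
    have a2 := hs_fib ρ (g := fun s => w s * e s * thK G (K ⊓ (p (ρ s)).K) (U s))
      (fun y => u y / th G 0) (sm (fun s => K ⊓ (p (ρ s)).K) fun s => u0 (ρ s)) fun s => by ring
    refine hasSum_le (fun y => ?_) (a1.sub (hν.mul_left _)) a2
    have e2 : ∑' s : ρ ⁻¹' {y}, w s * e s * thK G (K ⊓ (p (ρ s)).K) (U s) =
        ∑' s : ρ ⁻¹' {y}, w s * e s * thK G (K ⊓ (p y).K) (U s) :=
      tsum_congr fun s => by rw [show ρ s = y from s.2]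
    rw [e2]
    have b1 := mul_le_mul_of_nonneg_left (p3 y) (div_nonneg (u0 y).1 t0.le)
    have b2 : 0 ≤ (η + M * (tl G R / th G 0)) * ∑' s : ρ ⁻¹' {y}, w s :=
      mul_nonneg (add_nonneg hη (mul_nonneg M0 (div_nonneg (tl_nonneg hG R) t0.le))) (ν0 y)
    have b3 : u y / th G 0 * ((η * ∑' s : ρ ⁻¹' {y}, w s) * th G 0 +
        (M * ∑' s : ρ ⁻¹' {y}, w s) * tl G R) =
        u y * ((η + M * (tl G R / th G 0)) * ∑' s : ρ ⁻¹' {y}, w s) := by
      field_simp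
    have b4 := mul_le_of_le_one_left b2 (u0 y).2
    rw [mul_sub, b3] at b1
    linarith
  have hp : ∀ y, p y ∈ F.filter fun σ => σ.Bd H := fun y => mem_filter.2 ⟨hF _ (p1 y), p1 y⟩
  have h2 : ∑' s, w s * (u (ρ s) * (thK G (K ⊓ (p (ρ s)).K) (U s) / th G 0) * e s) =
      ∑ σ ∈ F.filter fun σ => σ.Bd H,
        ∑' s, w s * (v σ (ρ s) * (thK G (K ⊓ σ.K) (U s) / th G 0) * e s) := by
    refine Eq.trans (tsum_congr fun s => ?_) (Summable.tsum_finsetSum (f := fun σ s =>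
      w s * (v σ (ρ s) * (thK G (K ⊓ σ.K) (U s) / th G 0) * e s)) fun σ _ =>
      sm (v := fun s => v σ (ρ s)) (fun _ => K ⊓ σ.K) fun s =>
        ⟨(v0 σ (ρ s)).1, (v0 σ (ρ s)).2.1⟩)
    rw [sum_eq_single_of_mem _ (hp (ρ s)) fun σ _ n => by simp [hv, n.symm]]
    simp [hv]
  obtain ⟨σ, hσ, h3⟩ := (F.filter fun σ => σ.Bd H).exists_max_image (fun σ =>
    ∑' s, w s * (v σ (ρ s) * (thK G (K ⊓ σ.K) (U s) / th G 0) * e s)) ⟨_, hp default⟩
  refine ⟨σ, v σ, _, (mem_filter.1 hσ).2, card_filter_le F fun σ => σ.Bd H, v0 σ, ?_, fun a => ?_⟩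
  · rw [← nsmul_eq_mul]
    exact h1.trans (h2.trans_le (sum_le_card_nsmul _ _ _ h3))
  · choose c c1 c2 using fun y => Complex.exists_norm_eq_mul_self
      (ht (fun s : ρ ⁻¹' {y} => w s * e s) (fun s => U s) (σ.b a))
    have nb : ∀ y, ‖(v σ y : ℂ) * c y‖ ≤ 1 := fun y => by
      rw [norm_mul, c1, mul_one, Complex.norm_real, Real.norm_of_nonneg (v0 σ y).1]
      exact (v0 σ y).2.1
    refine ⟨fun y => v σ y * c y, fun y => ⟨nb y, fun h => (v0 σ y).2.2 fun n => h ?_⟩, ?_⟩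
    · simp [n]
    have a1 := hs_fib ρ (g := fun s => ((w s * e s : ℝ) : ℂ) * ee (toR (σ.b a) ⬝ᵥ U s))
      (fun y => (v σ y : ℂ) * c y) (summable_mul_cx hw w0 (C := M)
        (f := fun s => (v σ (ρ s) : ℂ) * c (ρ s) * (e s * ee (toR (σ.b a) ⬝ᵥ U s))) fun s => by
          rw [norm_mul, norm_mul (e s : ℂ), norm_ee, mul_one, Complex.norm_real]
          exact (mul_le_of_le_one_left (norm_nonneg _) (nb _)).trans (he s))
      fun s => by push_cast; ring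
    have a2 := hs_fib ρ (g := w) (v σ) (f := fun s => w s * v σ (ρ s))
      (summable_mul_real hw w0 (C := 1) fun s => by
        rw [abs_of_nonneg (v0 σ _).1]; exact (v0 σ _).2.1) fun s => mul_comm _ _
    have a3 := hasSum_le (fun y => ?_) (a2.mul_left η) (Complex.hasSum_re a1)
    · have a4 : ∑' s, w s * (v σ (ρ s) * (thK G (K ⊓ σ.K) (U s) / th G 0) * e s) ≤
          M * ∑' s, w s * v σ (ρ s) := by
        rw [← tsum_mul_left]
        refine (sm (fun _ => K ⊓ σ.K) fun s => ⟨(v0 σ (ρ s)).1, (v0 σ (ρ s)).2.1⟩).tsum_le_tsum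
          (fun s => ?_) ((summable_mul_real hw w0 (C := 1) fun s => by
            rw [abs_of_nonneg (v0 σ _).1]; exact (v0 σ _).2.1).mul_left M)
        rw [mul_left_comm M]
        exact mul_le_mul_of_nonneg_left ((le_abs_self _).trans
          (abs_three (v0 σ _).1 (abs_ker_le hG _ _) (he s))) (w0 s)
      calc _ ≤ η * (M * ∑' s, w s * v σ (ρ s)) := mul_le_mul_of_nonneg_left a4 hη
        _ = M * (η * ∑' s, w s * v σ (ρ s)) := by ring
        _ ≤ _ := mul_le_mul_of_nonneg_left (a3.trans (Complex.re_le_norm _)) M0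
    · have a5 := c2 y
      rw [ht] at a5
      rw [mul_assoc, ← a5, ← Complex.ofReal_mul, Complex.ofReal_re, mul_left_comm]
      by_cases hy : p y = σ
      · refine mul_le_mul_of_nonneg_left ?_ (v0 σ y).1
        subst hy
        exact p2 y a
      · simp [hv, hy]

end

end Vale.Agent.P057DR
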